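import Vale.Agent.Results.P125.A_main
import Vale.Agent.Results.P125.C_mean32

open Finset Matrix

namespace Vale.Agent.Results.P125.AAA_union

/-- The conditional mean inequality on a non superreflexive Banach space, and the moment bounds for
the summing operators on `ℓ¹`-Lipschitz maps. -/
theorem result :
    (∃ (X : Type) (_ : NormedAddCommGroup X) (_ : NormedSpace ℝ X) (_ : CompleteSpace X),
      (¬ ∃ (p : X → ℝ) (a b : ℝ), 0 < a ∧ 0 < b ∧ (∀ x y, p (x + y) ≤ p x + p y) ∧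
        (∀ (r : ℝ) x, p (r • x) = |r| * p x) ∧ (∀ x, a * ‖x‖ ≤ p x ∧ p x ≤ b * ‖x‖) ∧
        ∀ ε : ℝ, 0 < ε → ε ≤ 2 → ∃ δ : ℝ, 0 < δ ∧ ∀ x y, p x ≤ 1 → p y ≤ 1 → ε ≤ p (x - y) →
          p ((1 / 2 : ℝ) • (x + y)) ≤ 1 - δ) ∧
      ∀ (S : Type) [Fintype S] [DecidableEq S] (π : S → ℝ) (P : Matrix S S ℝ),
        (∀ x, 0 ≤ π x) → (∑ x, π x = 1) → (∀ x y, 0 ≤ P x y) → (∀ x, ∑ y, P x y = 1) →
        (∀ x y, π x * P x y = π y * P y x) → ∀ (f : S → X) (t : ℕ),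
        ∑ x, π x * ‖∑ y, (P ^ t) x y • f y - f x‖ ^ (3 / 2 : ℝ)
          ≤ 500000 * t * (1 + Real.log t) ^ (3 / 2 : ℝ) *
            ∑ x, ∑ y, π x * P x y * ‖f y - f x‖ ^ (3 / 2 : ℝ)) ∧
    (∀ (S : Type) [Fintype S] [DecidableEq S] (π : S → ℝ) (P : Matrix S S ℝ),
      (∀ x, 0 ≤ π x) → (∑ x, π x = 1) → (∀ x y, 0 ≤ P x y) → (∀ x, ∑ y, P x y = 1) →
      (∀ x y, π x * P x y = π y * P y x) →
      ∀ (N : ℕ) (f : S → ℕ → ℝ), (∀ x y, P x y ≠ 0 → ∑ i ∈ range N, |f y i - f x i| ≤ 1) →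
      ∀ t : ℕ,
      ∑ x, ∑ y, π x * (P ^ t) x y *
          (Vale.Agent.Lib.P125.summingNorm N (fun i => f y i - f x i)) ^ 3
        ≤ 84386 * (t : ℝ) ^ (8 / 3 : ℝ) ∧
      ∑ x, ∑ y, π x * (P ^ t) x y *
          (Vale.Agent.Lib.P125.summingNorm N (fun i => f y i - f x i)) ^ (9 / 8 : ℝ)
        ≤ 71 * t) :=
  ⟨Vale.Agent.Results.P125.C_mean32.result,
    fun _ _ _ π P hπ hπ1 hP hP1 hrev N f hf t =>
      Vale.Agent.Results.P125.A_main.result π P hπ hπ1 hP hP1 hrev N f hf t⟩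

end Vale.Agent.Results.P125.AAA_union
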